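import Mathlib

/-!
# P252, second encoding

The affine maximal equation and Euclidean completeness of a graph, for functions on an open subset
of `ℝⁿ`.
-/

namespace Vale.Agent.P252B

open Set Filter Topology

/-- The Hessian matrix `D²u(x)`: its `(i, j)` entry is the second derivative of `u` at `x` in the
directions `eᵢ, eⱼ`. -/
noncomputable def D2 {n : ℕ} (u : EuclideanSpace ℝ (Fin n) → ℝ) (x : EuclideanSpace ℝ (Fin n)) :
    Matrix (Fin n) (Fin n) ℝ :=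
  Matrix.of fun i j => iteratedFDeriv ℝ 2 u x
    ![EuclideanSpace.single i (1 : ℝ), EuclideanSpace.single j (1 : ℝ)]

/-- `w = (det D²u)^{-(n+1)/(n+2)}`. -/
noncomputable def weight {n : ℕ} (u : EuclideanSpace ℝ (Fin n) → ℝ)
    (x : EuclideanSpace ℝ (Fin n)) : ℝ :=
  (D2 u x).det ^ (-((n : ℝ) + 1) / ((n : ℝ) + 2))

/-- The affine maximal equation `∑ U^{ij} ∂ᵢⱼ w = 0` at the point `x`, where
`U^{ij} = det(D²u) (D²u)⁻¹ᵢⱼ`. -/
def MaximalAt {n : ℕ} (u : EuclideanSpace ℝ (Fin n) → ℝ) (x : EuclideanSpace ℝ (Fin n)) : Prop :=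
  ∑ i, ∑ j, (D2 u x).det * (D2 u x)⁻¹ i j * D2 (weight u) x i j = 0

/-- Length of the curve `t ↦ (γ t, u (γ t))`, `0 ≤ t ≤ 1`, on the graph of `u`, that is the length
of `γ` for the metric `δᵢⱼ + uᵢ uⱼ`. -/
noncomputable def graphLength {n : ℕ} (u : EuclideanSpace ℝ (Fin n) → ℝ)
    (γ : ℝ → EuclideanSpace ℝ (Fin n)) : ℝ :=
  ∫ t in (0 : ℝ)..1, √(‖deriv γ t‖ ^ 2 + (fderiv ℝ u (γ t) (deriv γ t)) ^ 2)

/-- The graph of `u` over `Ω` is complete for the induced Euclidean metric `δᵢⱼ + uᵢ uⱼ`: a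
sequence of points of `Ω` which is Cauchy for the distance defined by this metric (any two late
points are joined by a `C¹` curve in `Ω` whose lift to the graph is short) has a limit in `Ω`. -/
def GraphComplete {n : ℕ} (Ω : Set (EuclideanSpace ℝ (Fin n)))
    (u : EuclideanSpace ℝ (Fin n) → ℝ) : Prop :=
  ∀ x : ℕ → EuclideanSpace ℝ (Fin n), (∀ k, x k ∈ Ω) →
    (∀ ε : ℝ, 0 < ε → ∃ N : ℕ, ∀ k ≥ N, ∀ l ≥ N, ∃ γ : ℝ → EuclideanSpace ℝ (Fin n),
      ContDiff ℝ 1 γ ∧ (∀ t ∈ Icc (0 : ℝ) 1, γ t ∈ Ω) ∧ γ 0 = x k ∧ γ 1 = x l ∧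
        graphLength u γ < ε) →
    ∃ a ∈ Ω, Tendsto x atTop (𝓝 a)

end Vale.Agent.P252B
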