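import Mathlib
import Vale.Agent.Lib.P252.Defs
import Vale.Agent.Lib.P252.Final
import Vale.Agent.Lib.P252B.Defs

/-!
# P252, second encoding: derivation from `exists_entire`
-/

namespace Vale.Agent.P252B

open Set Filter Topology MeasureTheory
open scoped ContDiff

theorem D2_eq_transpose {n : ℕ} {u : EuclideanSpace ℝ (Fin n) → ℝ} (hu : ContDiff ℝ ∞ u)
    (x : EuclideanSpace ℝ (Fin n)) (i j : Fin n) :
    D2 u x i j = Vale.Agent.P252.hessian u x j i := by
  have h1 : Differentiable ℝ (fderiv ℝ u) :=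
    (hu.fderiv_right (m := 1) (by norm_cast)).differentiable (by norm_num)
  unfold D2 Vale.Agent.P252.hessian
  rw [Matrix.of_apply, Matrix.of_apply, iteratedFDeriv_two_apply]
  have h2 := ((h1 x).hasFDerivAt.clm_apply
    (hasFDerivAt_const (EuclideanSpace.single j (1 : ℝ)) x)).fderiv
  rw [h2]
  simp

theorem D2_eq {n : ℕ} {u : EuclideanSpace ℝ (Fin n) → ℝ} (hu : ContDiff ℝ ∞ u)
    (hpd : ∀ x, (Vale.Agent.P252.hessian u x).PosDef) (x : EuclideanSpace ℝ (Fin n)) :
    D2 u x = Vale.Agent.P252.hessian u x := by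
  ext i j
  rw [D2_eq_transpose hu]
  have h := (hpd x).isHermitian.apply i j
  simpa using h

theorem contDiff_D2 {n : ℕ} {u : EuclideanSpace ℝ (Fin n) → ℝ} (hu : ContDiff ℝ ∞ u)
    (i j : Fin n) : ContDiff ℝ ∞ fun x => D2 u x i j := by
  have h1 : ContDiff ℝ ∞ (fun x => Vale.Agent.P252.hessian u x j i) := by
    unfold Vale.Agent.P252.hessian
    simp only [Matrix.of_apply]
    have h2 : ContDiff ℝ ∞ (fun y => fderiv ℝ u y (EuclideanSpace.single j (1 : ℝ))) :=
      (hu.fderiv_right (m := ∞) (by norm_cast)).clm_apply contDiff_const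
    exact (h2.fderiv_right (m := ∞) (by norm_cast)).clm_apply contDiff_const
  have h3 : (fun x => D2 u x i j) = fun x => Vale.Agent.P252.hessian u x j i := by
    funext x
    exact D2_eq_transpose hu x i j
  rw [h3]
  exact h1

theorem contDiff_det {n : ℕ} {u : EuclideanSpace ℝ (Fin n) → ℝ} (hu : ContDiff ℝ ∞ u) :
    ContDiff ℝ ∞ fun x => (D2 u x).det := by
  simp only [Matrix.det_apply]
  refine ContDiff.sum fun σ _ => ?_
  refine ContDiff.const_smul _ ?_
  exact contDiff_prod fun i _ => contDiff_D2 hu _ _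

theorem weight_eq {n : ℕ} {u : EuclideanSpace ℝ (Fin n) → ℝ} (hu : ContDiff ℝ ∞ u)
    (hpd : ∀ x, (Vale.Agent.P252.hessian u x).PosDef) :
    weight u = Vale.Agent.P252.wFun u := by
  funext x
  unfold weight Vale.Agent.P252.wFun
  rw [D2_eq hu hpd, neg_div]

theorem contDiff_weight {n : ℕ} {u : EuclideanSpace ℝ (Fin n) → ℝ} (hu : ContDiff ℝ ∞ u)
    (hpd : ∀ x, (Vale.Agent.P252.hessian u x).PosDef) : ContDiff ℝ ∞ (weight u) := by
  unfold weight
  refine ContDiff.rpow_const_of_ne (contDiff_det hu) fun x => ?_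
  rw [D2_eq hu hpd]
  exact (hpd x).det_pos.ne'

theorem maximalAt {n : ℕ} {u : EuclideanSpace ℝ (Fin n) → ℝ} (hu : ContDiff ℝ ∞ u)
    (hpd : ∀ x, (Vale.Agent.P252.hessian u x).PosDef) (hAM : Vale.Agent.P252.SolvesAM u)
    (x : EuclideanSpace ℝ (Fin n)) : MaximalAt u x := by
  have hw := contDiff_weight hu hpd
  have h := hAM x
  unfold MaximalAt
  rw [D2_eq hu hpd]
  have hsym : ∀ i j, (Vale.Agent.P252.hessian u x)⁻¹ i j =
      (Vale.Agent.P252.hessian u x)⁻¹ j i := by
    intro i j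
    have h1 := (hpd x).isHermitian.inv.apply i j
    simpa using h1.symm
  calc ∑ i, ∑ j, (Vale.Agent.P252.hessian u x).det * (Vale.Agent.P252.hessian u x)⁻¹ i j *
        D2 (weight u) x i j
      = ∑ i, ∑ j, (Vale.Agent.P252.hessian u x).det * (Vale.Agent.P252.hessian u x)⁻¹ j i *
        Vale.Agent.P252.hessian (Vale.Agent.P252.wFun u) x j i := by
        refine Finset.sum_congr rfl fun i _ => Finset.sum_congr rfl fun j _ => ?_
        rw [D2_eq_transpose hw, weight_eq hu hpd, hsym i j]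
    _ = ∑ i, ∑ j, (Vale.Agent.P252.hessian u x).det * (Vale.Agent.P252.hessian u x)⁻¹ i j *
        Vale.Agent.P252.hessian (Vale.Agent.P252.wFun u) x i j := Finset.sum_comm
    _ = 0 := h

theorem norm_sub_le_graphLength {n : ℕ} {u : EuclideanSpace ℝ (Fin n) → ℝ}
    (hu : ContDiff ℝ ∞ u) {γ : ℝ → EuclideanSpace ℝ (Fin n)} (hγ : ContDiff ℝ 1 γ) :
    ‖γ 1 - γ 0‖ ≤ graphLength u γ := by
  have hd : Continuous (deriv γ) := hγ.continuous_deriv (le_refl 1)
  have h1 : ∫ t in (0 : ℝ)..1, deriv γ t = γ 1 - γ 0 :=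
    intervalIntegral.integral_deriv_eq_sub
      (fun x _ => (hγ.differentiable (by norm_num)) x) (hd.intervalIntegrable 0 1)
  have hfu : Continuous (fderiv ℝ u) := (hu.fderiv_right (m := 0) (by norm_cast)).continuous
  have hc : Continuous fun t => √(‖deriv γ t‖ ^ 2 + (fderiv ℝ u (γ t) (deriv γ t)) ^ 2) := by
    have h2 : Continuous fun t => fderiv ℝ u (γ t) (deriv γ t) :=
      (hfu.comp hγ.continuous).clm_apply hd
    exact ((hd.norm.pow 2).add (h2.pow 2)).sqrt
  rw [← h1]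
  unfold graphLength
  refine (intervalIntegral.norm_integral_le_integral_norm zero_le_one).trans ?_
  refine intervalIntegral.integral_mono_on zero_le_one (hd.norm.intervalIntegrable 0 1)
    (hc.intervalIntegrable 0 1) fun t _ => ?_
  exact Real.le_sqrt_of_sq_le (by nlinarith [sq_nonneg (fderiv ℝ u (γ t) (deriv γ t))])

theorem graphComplete_univ {n : ℕ} {u : EuclideanSpace ℝ (Fin n) → ℝ} (hu : ContDiff ℝ ∞ u) :
    GraphComplete univ u := by
  intro x _ hx
  have hc : CauchySeq x := by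
    refine Metric.cauchySeq_iff.2 fun ε hε => ?_
    obtain ⟨N, hN⟩ := hx ε hε
    refine ⟨N, fun k hk l hl => ?_⟩
    obtain ⟨γ, hγ, _, h0, h1, hlt⟩ := hN l hl k hk
    have h := norm_sub_le_graphLength hu hγ
    rw [h0, h1] at h
    rw [dist_eq_norm]
    exact lt_of_le_of_lt h hlt
  obtain ⟨a, ha⟩ := cauchySeq_tendsto_of_complete hc
  exact ⟨a, mem_univ a, ha⟩

/-- The landed example with all properties in the second encoding. -/
theorem exists_second (n : ℕ) (hn : 10 ≤ n) :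
    ∃ u : EuclideanSpace ℝ (Fin n) → ℝ,
      ContDiff ℝ ∞ u ∧ (∀ x, (D2 u x).PosDef) ∧ (∀ x, MaximalAt u x) ∧
      GraphComplete univ u ∧
      ¬ ∃ (A : Matrix (Fin n) (Fin n) ℝ) (b : Fin n → ℝ) (c : ℝ),
          ∀ x, u x = (∑ i, ∑ j, A i j * x i * x j) / 2 + ∑ i, b i * x i + c := by
  obtain ⟨k, rfl⟩ : ∃ k, n = k + 1 := ⟨n - 1, by omega⟩
  obtain ⟨u, hu, hpd, hAM, hq⟩ := Vale.Agent.P252.exists_entire k (by omega)
  refine ⟨u, hu, fun x => ?_, maximalAt hu hpd hAM, graphComplete_univ hu, hq⟩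
  rw [D2_eq hu hpd]
  exact hpd x

end Vale.Agent.P252B
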